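import Mathlib
import Vale.Agent.Lib.P335.helper26.ThreeDefs

/-!
Counting three-row margin matrices by their hole counts (P335, three-row lemma).

A matrix of `Om 3 n r c` is the same thing as an ordered partition of the columns of sum `2`
(by the row of their hole) together with an ordered partition of the columns of sum `1`
(by the row of their particle).  The number of ordered partitions of a finite set into three
parts of prescribed sizes is a multinomial coefficient.
-/

namespace Vale.Agent.Lib.P335.Bip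

open Finset

namespace H93

/-! ### Ordered partitions of a finite set into three parts of prescribed sizes -/

section Part3

variable {α : Type*}

/-- `P` is an ordered partition of `S` into three parts with sizes `k`. -/
def IsPart3 (S : Finset α) (k : Fin 3 → ℕ) (P : Fin 3 → Finset α) : Prop :=
  (∀ l, P l ⊆ S) ∧ (∀ j ∈ S, ∃ l, j ∈ P l) ∧ (∀ l l', l ≠ l' → Disjoint (P l) (P l')) ∧
    ∀ l, (P l).card = k l

open Classical in
/-- The finite set of ordered partitions of `S` into three parts with sizes `k`. -/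
noncomputable def part3 (S : Finset α) (k : Fin 3 → ℕ) : Finset (Fin 3 → Finset α) :=
  (Fintype.piFinset (fun _ : Fin 3 => S.powerset)).filter (fun P => IsPart3 S k P)

open Classical in
theorem mem_part3 {S : Finset α} {k : Fin 3 → ℕ} {P : Fin 3 → Finset α} :
    P ∈ part3 S k ↔ IsPart3 S k P := by
  unfold part3
  rw [Finset.mem_filter, Fintype.mem_piFinset]
  constructor
  · exact fun h => h.2
  · exact fun h => ⟨fun l => Finset.mem_powerset.mpr (h.1 l), h⟩

/-- In an ordered partition every element of the ground set lies in exactly one part. -/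
theorem IsPart3.exactly_one {S : Finset α} {k : Fin 3 → ℕ} {P : Fin 3 → Finset α}
    (hP : IsPart3 S k P) {j : α} (hj : j ∈ S) :
    (j ∈ P 0 ∧ j ∉ P 1 ∧ j ∉ P 2) ∨ (j ∉ P 0 ∧ j ∈ P 1 ∧ j ∉ P 2) ∨
      (j ∉ P 0 ∧ j ∉ P 1 ∧ j ∈ P 2) := by
  obtain ⟨_, hcov, hdis, _⟩ := hP
  have d01 := Finset.disjoint_left.mp (hdis 0 1 (by decide))
  have d02 := Finset.disjoint_left.mp (hdis 0 2 (by decide))
  have d12 := Finset.disjoint_left.mp (hdis 1 2 (by decide))
  obtain ⟨l, hl⟩ := hcov j hj
  fin_cases l
  · exact Or.inl ⟨hl, d01 hl, d02 hl⟩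
  · exact Or.inr (Or.inl ⟨fun h => d01 h hl, hl, d12 hl⟩)
  · exact Or.inr (Or.inr ⟨fun h => d02 h hl, fun h => d12 h hl, hl⟩)

/-- The triple `(A, B, S \ (A ∪ B))` as a function on `Fin 3`. -/
def mk3 [DecidableEq α] (S A B : Finset α) : Fin 3 → Finset α :=
  fun l => if l = 0 then A else if l = 1 then B else S \ (A ∪ B)

theorem mk3_zero [DecidableEq α] (S A B : Finset α) : mk3 S A B 0 = A := rfl
theorem mk3_one [DecidableEq α] (S A B : Finset α) : mk3 S A B 1 = B := rfl
theorem mk3_two [DecidableEq α] (S A B : Finset α) : mk3 S A B 2 = S \ (A ∪ B) := rfl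

theorem isPart3_mk3 [DecidableEq α] {S : Finset α} {k : Fin 3 → ℕ} (hk : k 0 + k 1 + k 2 = S.card)
    {A B : Finset α} (hA : A ⊆ S) (hAc : A.card = k 0) (hB : B ⊆ S \ A) (hBc : B.card = k 1) :
    IsPart3 S k (mk3 S A B) := by
  have hBS : B ⊆ S := fun j hj => (Finset.mem_sdiff.mp (hB hj)).1
  have hAB : Disjoint A B := by
    rw [Finset.disjoint_left]
    intro j hjA hjB
    exact (Finset.mem_sdiff.mp (hB hjB)).2 hjA
  have hABS : A ∪ B ⊆ S := Finset.union_subset hA hBS
  refine ⟨?_, ?_, ?_, ?_⟩
  · intro l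
    fin_cases l
    · exact hA
    · exact hBS
    · exact Finset.sdiff_subset
  · intro j hj
    by_cases hjA : j ∈ A
    · exact ⟨0, hjA⟩
    · by_cases hjB : j ∈ B
      · exact ⟨1, hjB⟩
      · refine ⟨2, ?_⟩
        rw [mk3_two, Finset.mem_sdiff, Finset.mem_union]
        exact ⟨hj, fun h => h.elim hjA hjB⟩
  · have h02 : Disjoint A (S \ (A ∪ B)) := by
      rw [Finset.disjoint_left]
      intro j hjA hj
      exact (Finset.mem_sdiff.mp hj).2 (Finset.mem_union_left _ hjA)
    have h12 : Disjoint B (S \ (A ∪ B)) := by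
      rw [Finset.disjoint_left]
      intro j hjB hj
      exact (Finset.mem_sdiff.mp hj).2 (Finset.mem_union_right _ hjB)
    intro l l' hll
    fin_cases l <;> fin_cases l'
    · exact absurd rfl hll
    · exact hAB
    · exact h02
    · exact hAB.symm
    · exact absurd rfl hll
    · exact h12
    · exact h02.symm
    · exact h12.symm
    · exact absurd rfl hll
  · intro l
    fin_cases l
    · exact hAc
    · exact hBc
    · change (S \ (A ∪ B)).card = k 2
      rw [Finset.card_sdiff_of_subset hABS, Finset.card_union_of_disjoint hAB]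
      omega

theorem IsPart3.eq_mk3 [DecidableEq α] {S : Finset α} {k : Fin 3 → ℕ} {P : Fin 3 → Finset α}
    (hP : IsPart3 S k P) : mk3 S (P 0) (P 1) = P := by
  funext l
  fin_cases l
  · rfl
  · rfl
  · change S \ (P 0 ∪ P 1) = P 2
    ext j
    rw [Finset.mem_sdiff, Finset.mem_union]
    constructor
    · rintro ⟨hjS, hj⟩
      rcases hP.exactly_one hjS with h | h | h
      · exact absurd (Or.inl h.1) hj
      · exact absurd (Or.inr h.2.1) hj
      · exact h.2.2
    · intro hj
      have hjS : j ∈ S := hP.1 2 hj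
      rcases hP.exactly_one hjS with h | h | h
      · exact absurd hj h.2.2
      · exact absurd hj h.2.2
      · exact ⟨hjS, fun h' => h'.elim h.1 h.2.1⟩

/-- The number of ordered partitions of `S` into three parts of sizes `k 0, k 1, k 2`. -/
theorem card_part3 [DecidableEq α] (S : Finset α) (k : Fin 3 → ℕ) (hk : k 0 + k 1 + k 2 = S.card) :
    (part3 S k).card = S.card.choose (k 0) * (S.card - k 0).choose (k 1) := by
  have hcard : (part3 S k).card =
      ((S.powersetCard (k 0)).sigma (fun A => (S \ A).powersetCard (k 1))).card := by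
    refine Finset.card_bij' (fun P _ => ⟨P 0, P 1⟩) (fun AB _ => mk3 S AB.1 AB.2) ?_ ?_ ?_ ?_
    · intro P hP
      have hP' := mem_part3.mp hP
      rw [Finset.mem_sigma]
      refine ⟨Finset.mem_powersetCard.mpr ⟨hP'.1 0, hP'.2.2.2 0⟩, ?_⟩
      refine Finset.mem_powersetCard.mpr ⟨?_, hP'.2.2.2 1⟩
      exact Finset.subset_sdiff.mpr ⟨hP'.1 1, hP'.2.2.1 1 0 (by decide)⟩
    · intro AB hAB
      rw [Finset.mem_sigma] at hAB
      obtain ⟨h1, h2⟩ := hAB
      rw [Finset.mem_powersetCard] at h1 h2
      exact mem_part3.mpr (isPart3_mk3 hk h1.1 h1.2 h2.1 h2.2)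
    · intro P hP
      exact (mem_part3.mp hP).eq_mk3
    · intro AB _
      rfl
  rw [hcard, Finset.card_sigma]
  rw [Finset.sum_const_nat (m := (S.card - k 0).choose (k 1)), Finset.card_powersetCard]
  intro A hA
  rw [Finset.mem_powersetCard] at hA
  rw [Finset.card_powersetCard, Finset.card_sdiff_of_subset hA.1, hA.2]

/-- The multinomial form of `card_part3`. -/
theorem card_part3_real [DecidableEq α] (S : Finset α) (k : Fin 3 → ℕ) (hk : k 0 + k 1 + k 2 = S.card) :
    ((part3 S k).card : ℝ) = (S.card.factorial : ℝ) /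
      (((k 0).factorial : ℝ) * ((k 1).factorial : ℝ) * ((k 2).factorial : ℝ)) := by
  have h0 : k 0 ≤ S.card := by omega
  have h1 : k 1 ≤ S.card - k 0 := by omega
  have h2 : S.card - k 0 - k 1 = k 2 := by omega
  have e0 := Nat.choose_mul_factorial_mul_factorial h0
  have e1 := Nat.choose_mul_factorial_mul_factorial h1
  rw [h2] at e1
  have key : (part3 S k).card * ((k 0).factorial * (k 1).factorial * (k 2).factorial) =
      S.card.factorial := by
    rw [card_part3 S k hk, ← e0, ← e1]
    ring
  have hpos : (0 : ℝ) < ((k 0).factorial : ℝ) * ((k 1).factorial : ℝ) * ((k 2).factorial : ℝ) := by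
    positivity
  rw [eq_div_iff hpos.ne']
  exact_mod_cast key

end Part3

/-! ### Three-row matrices -/

section Three

variable {n : ℕ}

theorem fin3_cases : ∀ l : Fin 3, l = 0 ∨ l = 1 ∨ l = 2 := by decide

/-- The column sum of a three-row matrix as a sum of three indicators. -/
theorem colSum_three (x : Mat 3 n) (j : Fin n) :
    colSum x j = (if j ∈ x 0 then 1 else 0) + (if j ∈ x 1 then 1 else 0) +
      (if j ∈ x 2 then 1 else 0) := by
  unfold colSum
  rw [Finset.card_filter, Fin.sum_univ_three]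

/-- The set of columns with column sum `k`. -/
def colsOf (c : Fin n → ℕ) (k : ℕ) : Finset (Fin n) := univ.filter (fun j => c j = k)

theorem mem_colsOf {c : Fin n → ℕ} {k : ℕ} {j : Fin n} : j ∈ colsOf c k ↔ c j = k := by
  unfold colsOf
  rw [Finset.mem_filter]
  exact ⟨fun h => h.2, fun h => ⟨Finset.mem_univ j, h⟩⟩

theorem ncol_eq (c : Fin n → ℕ) (k : ℕ) : ncol c k = (colsOf c k).card := rfl

/-- The set of holes at the site `l`: columns of sum `2` missing row `l`. -/
def holes (c : Fin n → ℕ) (x : Mat 3 n) (l : Fin 3) : Finset (Fin n) :=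
  univ.filter (fun j => c j = 2 ∧ j ∉ x l)

theorem mem_holes {c : Fin n → ℕ} {x : Mat 3 n} {l : Fin 3} {j : Fin n} :
    j ∈ holes c x l ↔ c j = 2 ∧ j ∉ x l := by
  unfold holes
  rw [Finset.mem_filter]
  exact ⟨fun h => h.2, fun h => ⟨Finset.mem_univ j, h⟩⟩

theorem hcnt_eq (c : Fin n → ℕ) (x : Mat 3 n) (l : Fin 3) : hcnt c x l = (holes c x l).card := rfl

/-- The set of particles at the site `l`: columns of sum `1` lying in row `l`. -/
def parts (c : Fin n → ℕ) (x : Mat 3 n) (l : Fin 3) : Finset (Fin n) :=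
  univ.filter (fun j => c j = 1 ∧ j ∈ x l)

theorem mem_parts {c : Fin n → ℕ} {x : Mat 3 n} {l : Fin 3} {j : Fin n} :
    j ∈ parts c x l ↔ c j = 1 ∧ j ∈ x l := by
  unfold parts
  rw [Finset.mem_filter]
  exact ⟨fun h => h.2, fun h => ⟨Finset.mem_univ j, h⟩⟩

/-- The three-row matrix with hole sets `H` and particle sets `P`. -/
def mkMat (c : Fin n → ℕ) (H P : Fin 3 → Finset (Fin n)) : Mat 3 n :=
  fun l => colsOf c 3 ∪ P l ∪ (colsOf c 2 \ H l)

theorem mem_mkMat {c : Fin n → ℕ} {H P : Fin 3 → Finset (Fin n)} {l : Fin 3} {j : Fin n} :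
    j ∈ mkMat c H P l ↔ c j = 3 ∨ j ∈ P l ∨ (c j = 2 ∧ j ∉ H l) := by
  unfold mkMat
  rw [Finset.mem_union, Finset.mem_union, Finset.mem_sdiff, mem_colsOf, mem_colsOf, or_assoc]

variable {r : Fin 3 → ℕ} {c : Fin n → ℕ}

theorem om_col (x : Om 3 n r c) (j : Fin n) :
    c j = (if j ∈ x.1 0 then 1 else 0) + (if j ∈ x.1 1 then 1 else 0) +
      (if j ∈ x.1 2 then 1 else 0) := by
  rw [← colSum_three, x.2.2 j]

/-- Structure of the columns of a three-row matrix. -/
theorem om_facts (x : Om 3 n r c) (j : Fin n) :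
    c j ≤ 3 ∧ (c j = 3 → ∀ l, j ∈ x.1 l) ∧ (c j = 0 → ∀ l, j ∉ x.1 l) ∧
    (c j = 1 → ∀ l l', j ∈ x.1 l → j ∈ x.1 l' → l = l') ∧ (c j = 1 → ∃ l, j ∈ x.1 l) ∧
    (c j = 2 → ∀ l l', j ∉ x.1 l → j ∉ x.1 l' → l = l') ∧ (c j = 2 → ∃ l, j ∉ x.1 l) := by
  have h := om_col x j
  by_cases h0 : j ∈ x.1 0 <;> by_cases h1 : j ∈ x.1 1 <;> by_cases h2 : j ∈ x.1 2 <;>
    simp only [h0, h1, h2, if_true, if_false] at h <;>
    refine ⟨by omega, ?_, ?_, ?_, ?_, ?_, ?_⟩
  all_goals first
    | (intro hc l
       rcases fin3_cases l with rfl | rfl | rfl <;> first | assumption | (exfalso; omega))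
    | (intro hc l l' hl hl'
       rcases fin3_cases l with rfl | rfl | rfl <;> rcases fin3_cases l' with rfl | rfl | rfl <;>
         first | rfl | (exfalso; first | omega | contradiction))
    | (intro hc
       first | exact ⟨0, h0⟩ | exact ⟨1, h1⟩ | exact ⟨2, h2⟩ | (exfalso; omega))
end Three

end H93

open H93

theorem sum_hcnt {n : ℕ} {r : Fin 3 → ℕ} {c : Fin n → ℕ} (x : Om 3 n r c) :
    ∑ l, hcnt c x.1 l = ncol c 2 := by
  rw [Fin.sum_univ_three]
  unfold hcnt ncol
  rw [Finset.card_filter, Finset.card_filter, Finset.card_filter, Finset.card_filter,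
    ← Finset.sum_add_distrib, ← Finset.sum_add_distrib]
  refine Finset.sum_congr rfl (fun j _ => ?_)
  have h := om_col x j
  by_cases h0 : j ∈ x.1 0 <;> by_cases h1 : j ∈ x.1 1 <;> by_cases h2 : j ∈ x.1 2 <;>
    simp only [h0, h1, h2, if_true, if_false, not_true_eq_false, not_false_eq_true, and_false,
      and_true] at h ⊢ <;>
    split_ifs <;> omega

namespace H93

/-- The particle counts add up to the number of columns of sum `1`. -/
theorem sum_pcnt {n : ℕ} {r : Fin 3 → ℕ} {c : Fin n → ℕ} (x : Om 3 n r c) :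
    ∑ l, (parts c x.1 l).card = ncol c 1 := by
  rw [Fin.sum_univ_three]
  unfold parts ncol
  rw [Finset.card_filter, Finset.card_filter, Finset.card_filter, Finset.card_filter,
    ← Finset.sum_add_distrib, ← Finset.sum_add_distrib]
  refine Finset.sum_congr rfl (fun j _ => ?_)
  have h := om_col x j
  by_cases h0 : j ∈ x.1 0 <;> by_cases h1 : j ∈ x.1 1 <;> by_cases h2 : j ∈ x.1 2 <;>
    simp only [h0, h1, h2, if_true, if_false, and_false, and_true] at h ⊢ <;>
    split_ifs <;> omega

section Three2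

variable {n : ℕ} {r : Fin 3 → ℕ} {c : Fin n → ℕ}

/-- A matrix of `Om 3 n r c` is recovered from its hole sets and particle sets. -/
theorem om_eq_mkMat (x : Om 3 n r c) : x.1 = mkMat c (holes c x.1) (parts c x.1) := by
  funext l
  ext j
  rw [mem_mkMat, mem_parts, mem_holes]
  obtain ⟨h3, hall, hnone, -⟩ := om_facts x j
  constructor
  · intro hj
    have hne : c j ≠ 0 := fun h0 => hnone h0 l hj
    rcases (by omega : c j = 1 ∨ c j = 2 ∨ c j = 3) with h | h | h
    · exact Or.inr (Or.inl ⟨h, hj⟩)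
    · exact Or.inr (Or.inr ⟨h, fun h' => h'.2 hj⟩)
    · exact Or.inl h
  · rintro (h | h | h)
    · exact hall h l
    · exact h.2
    · by_contra hj
      exact h.2 ⟨h.1, hj⟩

/-- The size of a row of `mkMat`. -/
theorem card_mkMat_row {H P : Fin 3 → Finset (Fin n)} {l : Fin 3}
    (hP : P l ⊆ colsOf c 1) (hH : H l ⊆ colsOf c 2) :
    (mkMat c H P l).card + (H l).card = ncol c 3 + ncol c 2 + (P l).card := by
  have d1 : Disjoint (colsOf c 3) (P l) := by
    rw [Finset.disjoint_left]
    intro j hj3 hjP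
    have h1 := mem_colsOf.mp (hP hjP)
    have h3 := mem_colsOf.mp hj3
    omega
  have d2 : Disjoint (colsOf c 3 ∪ P l) (colsOf c 2 \ H l) := by
    rw [Finset.disjoint_left]
    intro j hj hj2
    have h2 := mem_colsOf.mp (Finset.mem_sdiff.mp hj2).1
    rcases Finset.mem_union.mp hj with hj3 | hjP
    · have h3 := mem_colsOf.mp hj3
      omega
    · have h1 := mem_colsOf.mp (hP hjP)
      omega
  have hle : (H l).card ≤ (colsOf c 2).card := Finset.card_le_card hH
  unfold mkMat
  rw [Finset.card_union_of_disjoint d2, Finset.card_union_of_disjoint d1,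
    Finset.card_sdiff_of_subset hH, ncol_eq, ncol_eq]
  omega

theorem holes_subset (x : Mat 3 n) (l : Fin 3) : holes c x l ⊆ colsOf c 2 := by
  intro j hj
  exact mem_colsOf.mpr (mem_holes.mp hj).1

theorem parts_subset (x : Mat 3 n) (l : Fin 3) : parts c x l ⊆ colsOf c 1 := by
  intro j hj
  exact mem_colsOf.mpr (mem_parts.mp hj).1

/-- Row sum identity: particles at `l` are determined by the holes at `l`. -/
theorem row_identity (x : Om 3 n r c) (l : Fin 3) :
    r l + hcnt c x.1 l = ncol c 3 + ncol c 2 + (parts c x.1 l).card := by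
  have h := card_mkMat_row (c := c) (H := holes c x.1) (P := parts c x.1) (l := l)
    (parts_subset x.1 l) (holes_subset x.1 l)
  rw [← om_eq_mkMat x, x.2.1 l] at h
  exact h

/-- The hole sets of a matrix of `Om 3 n r c` form an ordered partition of the columns of
sum `2`. -/
theorem isPart3_holes (x : Om 3 n r c) :
    IsPart3 (colsOf c 2) (fun l => hcnt c x.1 l) (holes c x.1) := by
  refine ⟨fun l => holes_subset x.1 l, ?_, ?_, fun l => rfl⟩
  · intro j hj
    obtain ⟨l, hl⟩ := (om_facts x j).2.2.2.2.2.2 (mem_colsOf.mp hj)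
    exact ⟨l, mem_holes.mpr ⟨mem_colsOf.mp hj, hl⟩⟩
  · intro l l' hll
    rw [Finset.disjoint_left]
    intro j hj hj'
    have h1 := mem_holes.mp hj
    have h2 := mem_holes.mp hj'
    exact hll ((om_facts x j).2.2.2.2.2.1 h1.1 l l' h1.2 h2.2)

/-- The particle sets of a matrix of `Om 3 n r c` form an ordered partition of the columns of
sum `1`. -/
theorem isPart3_parts (x : Om 3 n r c) :
    IsPart3 (colsOf c 1) (fun l => (parts c x.1 l).card) (parts c x.1) := by
  refine ⟨fun l => parts_subset x.1 l, ?_, ?_, fun l => rfl⟩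
  · intro j hj
    obtain ⟨l, hl⟩ := (om_facts x j).2.2.2.2.1 (mem_colsOf.mp hj)
    exact ⟨l, mem_parts.mpr ⟨mem_colsOf.mp hj, hl⟩⟩
  · intro l l' hll
    rw [Finset.disjoint_left]
    intro j hj hj'
    have h1 := mem_parts.mp hj
    have h2 := mem_parts.mp hj'
    exact hll ((om_facts x j).2.2.2.1 h1.1 l l' h1.2 h2.2)

end Three2

section Three3

variable {n : ℕ} {c : Fin n → ℕ}

theorem holes_mkMat {H P : Fin 3 → Finset (Fin n)} (hP : ∀ l, P l ⊆ colsOf c 1)
    (hH : ∀ l, H l ⊆ colsOf c 2) (l : Fin 3) : holes c (mkMat c H P) l = H l := by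
  ext j
  rw [mem_holes, mem_mkMat]
  constructor
  · rintro ⟨h2, hj⟩
    by_contra hjH
    exact hj (Or.inr (Or.inr ⟨h2, hjH⟩))
  · intro hjH
    have h2 := mem_colsOf.mp (hH l hjH)
    refine ⟨h2, ?_⟩
    rintro (h | h | h)
    · omega
    · have h1 := mem_colsOf.mp (hP l h)
      omega
    · exact h.2 hjH

theorem parts_mkMat {H P : Fin 3 → Finset (Fin n)} (hP : ∀ l, P l ⊆ colsOf c 1)
    (l : Fin 3) : parts c (mkMat c H P) l = P l := by
  ext j
  rw [mem_parts, mem_mkMat]
  constructor
  · rintro ⟨h1, h | h | h⟩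
    · omega
    · exact h
    · omega
  · intro hjP
    exact ⟨mem_colsOf.mp (hP l hjP), Or.inr (Or.inl hjP)⟩

/-- The column sums of `mkMat`. -/
theorem colSum_mkMat {H P : Fin 3 → Finset (Fin n)} {a b : Fin 3 → ℕ}
    (hP : IsPart3 (colsOf c 1) a P) (hH : IsPart3 (colsOf c 2) b H) (hc : ∀ j, c j ≤ 3)
    (j : Fin n) : colSum (mkMat c H P) j = c j := by
  rw [colSum_three]
  have hPs : ∀ l, j ∈ P l → c j = 1 := fun l h => mem_colsOf.mp (hP.1 l h)
  have hHs : ∀ l, j ∈ H l → c j = 2 := fun l h => mem_colsOf.mp (hH.1 l h)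
  have hcj := hc j
  rcases (by omega : c j = 0 ∨ c j = 1 ∨ c j = 2 ∨ c j = 3) with h | h | h | h
  · have hn : ∀ l, j ∉ mkMat c H P l := by
      intro l hl
      rcases mem_mkMat.mp hl with h' | h' | h'
      · omega
      · have := hPs l h'
        omega
      · omega
    rw [if_neg (hn 0), if_neg (hn 1), if_neg (hn 2), h]
  · have hm : ∀ l, j ∈ mkMat c H P l ↔ j ∈ P l := by
      intro l
      rw [mem_mkMat]
      constructor
      · rintro (h' | h' | h')
        · omega
        · exact h'
        · omega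
      · exact fun h' => Or.inr (Or.inl h')
    simp only [hm]
    rcases hP.exactly_one (mem_colsOf.mpr h) with h' | h' | h'
    · rw [if_pos h'.1, if_neg h'.2.1, if_neg h'.2.2, h]
    · rw [if_neg h'.1, if_pos h'.2.1, if_neg h'.2.2, h]
    · rw [if_neg h'.1, if_neg h'.2.1, if_pos h'.2.2, h]
  · have hm : ∀ l, j ∈ mkMat c H P l ↔ j ∉ H l := by
      intro l
      rw [mem_mkMat]
      constructor
      · rintro (h' | h' | h')
        · omega
        · have := hPs l h'
          omega
        · exact h'.2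
      · exact fun h' => Or.inr (Or.inr ⟨h, h'⟩)
    simp only [hm]
    rcases hH.exactly_one (mem_colsOf.mpr h) with h' | h' | h'
    · rw [if_neg (not_not.mpr h'.1), if_pos h'.2.1, if_pos h'.2.2, h]
    · rw [if_pos h'.1, if_neg (not_not.mpr h'.2.1), if_pos h'.2.2, h]
    · rw [if_pos h'.1, if_pos h'.2.1, if_neg (not_not.mpr h'.2.2), h]
  · have hm : ∀ l, j ∈ mkMat c H P l := fun l => mem_mkMat.mpr (Or.inl h)
    rw [if_pos (hm 0), if_pos (hm 1), if_pos (hm 2), h]

end Three3

end H93

theorem level_count {n : ℕ} {r : Fin 3 → ℕ} {c : Fin n → ℕ} (x0 : Om 3 n r c) (b : Fin 3 → ℕ)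
    (hb : ∑ l, b l = ncol c 2) :
    ((univ.filter (fun x : Om 3 n r c => ∀ l, hcnt c x.1 l = b l)).card : ℝ)
      = ((ncol c 2).factorial : ℝ) * ((ncol c 1).factorial : ℝ) * ∏ l, w3 r c l (b l) := by
  rw [Fin.sum_univ_three] at hb
  have hc3 : ∀ j, c j ≤ 3 := fun j => (om_facts x0 j).1
  by_cases hg : ∀ l, ncol c 3 + ncol c 2 ≤ r l + b l
  · -- the particle counts forced by the hole counts
    have hasum : (r 0 + b 0 - (ncol c 3 + ncol c 2)) + (r 1 + b 1 - (ncol c 3 + ncol c 2)) +
        (r 2 + b 2 - (ncol c 3 + ncol c 2)) = (colsOf c 1).card := by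
      have e0 := row_identity x0 0
      have e1 := row_identity x0 1
      have e2 := row_identity x0 2
      have s1 := sum_hcnt x0
      have s2 := sum_pcnt x0
      rw [Fin.sum_univ_three] at s1 s2
      have g0 := hg 0
      have g1 := hg 1
      have g2 := hg 2
      rw [← ncol_eq]
      omega
    have hb' : b 0 + b 1 + b 2 = (colsOf c 2).card := hb
    have hcard : (univ.filter (fun x : Om 3 n r c => ∀ l, hcnt c x.1 l = b l)).card =
        (part3 (colsOf c 2) b ×ˢ
          part3 (colsOf c 1) (fun l => r l + b l - (ncol c 3 + ncol c 2))).card := by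
      refine Finset.card_bij (fun x _ => (holes c x.1, parts c x.1)) ?_ ?_ ?_
      · intro x hx
        rw [Finset.mem_filter] at hx
        have hx2 := hx.2
        rw [Finset.mem_product]
        refine ⟨mem_part3.mpr ?_, mem_part3.mpr ?_⟩
        · have h := isPart3_holes x
          have hfun : (fun l => hcnt c x.1 l) = b := funext hx2
          rw [hfun] at h
          exact h
        · have h := isPart3_parts x
          have hfun : (fun l => (parts c x.1 l).card) =
              (fun l => r l + b l - (ncol c 3 + ncol c 2)) := by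
            funext l
            have e := row_identity x l
            rw [hx2 l] at e
            omega
          rw [hfun] at h
          exact h
      · intro x _ y _ hxy
        have h1 : holes c x.1 = holes c y.1 := congrArg Prod.fst hxy
        have h2 : parts c x.1 = parts c y.1 := congrArg Prod.snd hxy
        apply Subtype.ext
        rw [om_eq_mkMat x, om_eq_mkMat y, h1, h2]
      · rintro ⟨H, P⟩ hHP
        rw [Finset.mem_product] at hHP
        have hH : IsPart3 (colsOf c 2) b H := mem_part3.mp hHP.1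
        have hP : IsPart3 (colsOf c 1) (fun l => r l + b l - (ncol c 3 + ncol c 2)) P :=
          mem_part3.mp hHP.2
        have hrow : ∀ l, (mkMat c H P l).card = r l := by
          intro l
          have e := card_mkMat_row (c := c) (H := H) (P := P) (l := l) (hP.1 l) (hH.1 l)
          have e1 := hH.2.2.2 l
          have e2 : (P l).card = r l + b l - (ncol c 3 + ncol c 2) := hP.2.2.2 l
          have g := hg l
          omega
        refine ⟨⟨mkMat c H P, hrow, colSum_mkMat hP hH hc3⟩, ?_, ?_⟩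
        · rw [Finset.mem_filter]
          refine ⟨Finset.mem_univ _, ?_⟩
          intro l
          rw [hcnt_eq, holes_mkMat hP.1 hH.1 l]
          exact hH.2.2.2 l
        · have e1 : holes c (mkMat c H P) = H := funext (holes_mkMat hP.1 hH.1)
          have e2 : parts c (mkMat c H P) = P := funext (parts_mkMat hP.1)
          exact Prod.ext e1 e2
    rw [hcard, Finset.card_product, Nat.cast_mul, card_part3_real _ _ hb',
      card_part3_real _ _ hasum, Fin.prod_univ_three]
    unfold w3
    rw [if_pos (hg 0), if_pos (hg 1), if_pos (hg 2), ← ncol_eq, ← ncol_eq]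
    ring
  · rw [not_forall] at hg
    obtain ⟨l, hl⟩ := hg
    have hempty : univ.filter (fun x : Om 3 n r c => ∀ l, hcnt c x.1 l = b l) = ∅ := by
      rw [Finset.filter_eq_empty_iff]
      intro x _ hx
      have e := row_identity x l
      rw [hx l] at e
      omega
    have hw : w3 r c l (b l) = 0 := by
      unfold w3
      rw [if_neg (by omega)]
    rw [hempty, Finset.card_empty, Nat.cast_zero,
      Finset.prod_eq_zero (Finset.mem_univ l) hw, mul_zero]

theorem w3_nonneg {n : ℕ} (r : Fin 3 → ℕ) (c : Fin n → ℕ) (l : Fin 3) (t : ℕ) :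
    0 ≤ w3 r c l t := by
  unfold w3
  split_ifs
  · positivity
  · exact le_refl 0

theorem w3_logconcave {n : ℕ} (r : Fin 3 → ℕ) (c : Fin n → ℕ) (l : Fin 3) (s t : ℕ)
    (hst : s ≤ t) : w3 r c l s * w3 r c l (t + 1) ≤ w3 r c l (s + 1) * w3 r c l t := by
  by_cases hg : ncol c 3 + ncol c 2 ≤ r l + s
  · have g1 : ncol c 3 + ncol c 2 ≤ r l + (s + 1) := by omega
    have g2 : ncol c 3 + ncol c 2 ≤ r l + t := by omega
    have g3 : ncol c 3 + ncol c 2 ≤ r l + (t + 1) := by omega
    unfold w3
    rw [if_pos hg, if_pos g1, if_pos g2, if_pos g3]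
    obtain ⟨e, he⟩ : ∃ e, r l + s - (ncol c 3 + ncol c 2) = e := ⟨_, rfl⟩
    obtain ⟨f, hf⟩ : ∃ f, r l + t - (ncol c 3 + ncol c 2) = f := ⟨_, rfl⟩
    have he1 : r l + (s + 1) - (ncol c 3 + ncol c 2) = e + 1 := by omega
    have hf1 : r l + (t + 1) - (ncol c 3 + ncol c 2) = f + 1 := by omega
    have hef : e ≤ f := by omega
    rw [he, hf, he1, hf1, Nat.factorial_succ s, Nat.factorial_succ t, Nat.factorial_succ e,
      Nat.factorial_succ f]
    push_cast
    have hs : (0 : ℝ) < (s.factorial : ℝ) := by positivity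
    have ht : (0 : ℝ) < (t.factorial : ℝ) := by positivity
    have hep : (0 : ℝ) < (e.factorial : ℝ) := by positivity
    have hfp : (0 : ℝ) < (f.factorial : ℝ) := by positivity
    have hst' : (s : ℝ) ≤ (t : ℝ) := by exact_mod_cast hst
    have hef' : (e : ℝ) ≤ (f : ℝ) := by exact_mod_cast hef
    have hs0 : (0 : ℝ) ≤ (s : ℝ) := by positivity
    have he0 : (0 : ℝ) ≤ (e : ℝ) := by positivity
    have key : ((s : ℝ) + 1) * ((e : ℝ) + 1) ≤ ((t : ℝ) + 1) * ((f : ℝ) + 1) :=
      mul_le_mul (by linarith) (by linarith) (by linarith) (by linarith)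
    rw [div_mul_div_comm, div_mul_div_comm, div_le_div_iff₀ (by positivity) (by positivity)]
    have hpos : (0 : ℝ) ≤ (s.factorial : ℝ) * (t.factorial : ℝ) * (e.factorial : ℝ) *
        (f.factorial : ℝ) := by positivity
    have := mul_le_mul_of_nonneg_right key hpos
    nlinarith [this]
  · have hw : w3 r c l s = 0 := by
      unfold w3
      rw [if_neg hg]
    rw [hw, zero_mul]
    exact mul_nonneg (w3_nonneg r c l (s + 1)) (w3_nonneg r c l t)

end Vale.Agent.Lib.P335.Bip
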